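import Mathlib
import Vale.Agent.P369.Model.Bridge

/-!
# P369: the entropy photon-number inequality for P-classical inputs and a vacuum second input
-/

namespace Vale.Agent.Results.P369.ClassicalVacuumEPnI

open MeasureTheory
open scoped ComplexConjugate
open Vale.Agent.P369.Model

theorem result : ∀ (n : ℕ) (η : ℝ), 0 ≤ η → η ≤ 1 →
    ∀ (H : Type) [NormedAddCommGroup H] [InnerProductSpace ℂ H] [CompleteSpace H]
      (b : HilbertBasis (Fin n → ℕ) ℂ H)
      (μ : Measure (Fin n → ℂ)) [IsProbabilityMeasure μ] (A : H →L[ℂ] H),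
      IsDensity b A → FiniteMean b A →
      (∀ a c, mel b A a c = ∫ z, cohCoef z a * conj (cohCoef z c) ∂μ) →
      (∃ C, IsBSOutput η b A (vac b) C) ∧
      ∀ C, IsBSOutput η b A (vac b) C → FiniteMean b C ∧
        ∀ N : ℝ, 0 ≤ N → ENNReal.ofReal (n * gTherm N) ≤ vonNeumann b A →
          ENNReal.ofReal (n * gTherm (η * N)) ≤ vonNeumann b C :=
  fun _ _ h0 h1 _ _ _ _ b μ _ _ hA hE hent => epni_classical b h0 h1 μ hA hE hent

end Vale.Agent.Results.P369.ClassicalVacuumEPnI
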